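import Mathlib

namespace Vale.Agent.Results.P042.QuadraticLower

open Finset

/-- twelve residues modulo `205`, no two of which differ by a square modulo `205` -/
def R : Finset ℕ := {0, 11, 54, 65, 83, 89, 117, 143, 161, 172, 187, 199}

lemma R_lt : ∀ a ∈ R, a < 205 := by decide

lemma R_sq : ∀ a ∈ R, ∀ a' ∈ R, ∀ r < 205, (a' + r ^ 2 % 205) % 205 = a → r = 0 := by
  decide +kernel

/-- Ruzsa-type set in base `205`: digits from `R` at even places, arbitrary digits at odd places -/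
def T : ℕ → Finset ℕ
  | 0 => {0}
  | m + 1 => (R ×ˢ (range 205 ×ˢ T m)).image fun x => x.1 + 205 * x.2.1 + 42025 * x.2.2

lemma mem_T {m x : ℕ} : x ∈ T (m + 1) ↔ ∃ a b t, a ∈ R ∧ b < 205 ∧ t ∈ T m ∧
    a + 205 * b + 42025 * t = x := by
  simp only [T, mem_image, mem_product, mem_range, Prod.exists]
  constructor
  · rintro ⟨a, b, t, ⟨ha, hb, ht⟩, h⟩
    exact ⟨a, b, t, ha, hb, ht, h⟩
  · rintro ⟨a, b, t, ha, hb, ht, h⟩
    exact ⟨a, b, t, ⟨ha, hb, ht⟩, h⟩

lemma T_lt (m : ℕ) : ∀ x ∈ T m, x < 42025 ^ m := by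
  induction m with
  | zero => intro x hx; simp [T] at hx; simp [hx]
  | succ m ih =>
    intro x hx
    obtain ⟨a, b, t, ha, hb, ht, rfl⟩ := mem_T.1 hx
    have := ih t ht
    have := R_lt a ha
    rw [pow_succ]
    omega

lemma T_card (m : ℕ) : (T m).card = 2460 ^ m := by
  induction m with
  | zero => simp [T]
  | succ m ih =>
    have : (T (m + 1)).card = (R ×ˢ (range 205 ×ˢ T m)).card := by
      apply card_image_of_injOn
      rintro ⟨a, b, t⟩ h ⟨a', b', t'⟩ h' heq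
      simp only [coe_product, Set.mem_prod, mem_coe, mem_range] at h h'
      simp only at heq
      obtain ⟨h1, h2, _⟩ := h
      obtain ⟨h1', h2', _⟩ := h'
      have h3 := R_lt a h1
      have h3' := R_lt a' h1'
      simp only [Prod.mk.injEq]
      omega
    have hR : R.card = 12 := by decide
    rw [this, card_product, card_product, ih, card_range, pow_succ, hR]
    ring

lemma T_sdf (m : ℕ) : ∀ x ∈ T m, ∀ y ∈ T m, ∀ k : ℕ, x = y + k ^ 2 → k = 0 := by
  induction m with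
  | zero =>
    intro x hx y hy k h
    simp [T] at hx hy
    rw [hx, hy] at h
    have : k ^ 2 = 0 := by omega
    exact pow_eq_zero_iff (two_ne_zero) |>.1 this
  | succ m ih =>
    intro x hx y hy k h
    obtain ⟨a, b, t, ha, hb, ht, rfl⟩ := mem_T.1 hx
    obtain ⟨a', b', t', ha', hb', ht', rfl⟩ := mem_T.1 hy
    have h8 := R_lt a ha
    have h8' := R_lt a' ha'
    have hk5 : k % 205 = 0 := by
      apply R_sq a ha a' ha' (k % 205) (Nat.mod_lt _ (by norm_num))
      rw [← Nat.pow_mod]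
      generalize k ^ 2 = K at h
      omega
    obtain ⟨j, rfl⟩ : ∃ j, k = 205 * j := ⟨k / 205, by omega⟩
    have h5 : a + 205 * b + 42025 * t = a' + 205 * b' + 42025 * (t' + j ^ 2) := by
      rw [h]; ring
    have h6 : t = t' + j ^ 2 := by
      generalize j ^ 2 = J at h5
      omega
    have := ih t ht t' ht' j h6
    omega

/-- the set at level `m`, with modulus `q`, scaling `l` and range `q / d` of the lower part -/
def A (q m l d : ℕ) : Finset ℕ :=
  (range (q / d) ×ˢ T m).image fun x => 1 + q * (x.1 + q * (l * x.2))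

lemma mem_A {q m l d x : ℕ} : x ∈ A q m l d ↔
    ∃ s t, s < q / d ∧ t ∈ T m ∧ 1 + q * (s + q * (l * t)) = x := by
  simp only [A, mem_image, mem_product, mem_range, Prod.exists]
  constructor
  · rintro ⟨s, t, ⟨hs, ht⟩, h⟩
    exact ⟨s, t, hs, ht, h⟩
  · rintro ⟨s, t, hs, ht, h⟩
    exact ⟨s, t, ⟨hs, ht⟩, h⟩

lemma split_unique {q s s' t t' : ℕ} (hs : s < q) (hs' : s' < q) (h : s + q * t = s' + q * t') :
    t = t' := by
  have hq : 0 < q := by omega
  have h1 : (s + q * t) / q = t := by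
    rw [Nat.add_mul_div_left _ _ hq, Nat.div_eq_of_lt hs, zero_add]
  have h2 : (s' + q * t') / q = t' := by
    rw [Nat.add_mul_div_left _ _ hq, Nat.div_eq_of_lt hs', zero_add]
  rw [← h1, ← h2, h]

lemma A_card {q m l d : ℕ} (hl : 1 ≤ l) : (A q m l d).card = q / d * 2460 ^ m := by
  have : (A q m l d).card = (range (q / d) ×ˢ T m).card := by
    apply card_image_of_injOn
    rintro ⟨s, t⟩ h ⟨s', t'⟩ h' heq
    simp only [coe_product, Set.mem_prod, mem_coe, mem_range] at h h'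
    simp only at heq
    have hdq : q / d ≤ q := Nat.div_le_self q d
    have hq : 0 < q := by omega
    have h1 : s + q * (l * t) = s' + q * (l * t') := Nat.eq_of_mul_eq_mul_left hq (by omega)
    have h2 : l * t = l * t' := split_unique (by omega) (by omega) h1
    have h3 : t = t' := Nat.eq_of_mul_eq_mul_left hl h2
    subst h3
    simp only [Prod.mk.injEq, and_true]
    omega
  rw [this, card_product, card_range, T_card]

lemma A_le {q m l d : ℕ} (hl : 1 ≤ l) : ∀ x ∈ A q m l d, 1 ≤ x ∧ x ≤ q * q * (l * 42025 ^ m) := by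
  intro x hx
  obtain ⟨s, t, hs, ht, rfl⟩ := mem_A.1 hx
  have h1 := T_lt m t ht
  have hdq : q / d ≤ q := Nat.div_le_self q d
  have hq : 0 < q := by omega
  refine ⟨by omega, ?_⟩
  have h2 : s + q * (l * t) + 1 ≤ q * (l * 42025 ^ m) := by
    have h3 : q * (l * (t + 1)) ≤ q * (l * 42025 ^ m) :=
      Nat.mul_le_mul_left _ (Nat.mul_le_mul_left _ h1)
    have h4 : q * (l * (t + 1)) = q * (l * t) + q * l := by ring
    have h5 : q * 1 ≤ q * l := Nat.mul_le_mul_left _ hl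
    omega
  have h5 : q * (s + q * (l * t) + 1) ≤ q * (q * (l * 42025 ^ m)) := Nat.mul_le_mul_left _ h2
  have h6 : q * (s + q * (l * t) + 1) = q * (s + q * (l * t)) + q := by ring
  rw [mul_assoc]
  omega

lemma core {c α γ q m s s' t t' : ℕ} {Δ k : ℤ} (hc : 1 ≤ c) (hα : 1 ≤ α) (hγ : 1 ≤ γ)
    (hΔ : Δ ≠ 0) (hq : 4 * (c * α * γ * Δ.natAbs) * 205 ^ m ≤ q)
    (hs : s < q / (2 * (α * γ))) (hs' : s' < q / (2 * (α * γ)))
    (ht : t ∈ T m) (ht' : t' ∈ T m)
    (h : (α : ℤ) * ((s + q * ((c * α * γ : ℕ) * t)) - (s' + q * ((c * α * γ : ℕ) * t'))) =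
      c * γ * q * k ^ 2 + c * Δ * k) : k = 0 := by
  have hF1 : 1 ≤ 205 ^ m := Nat.one_le_pow _ _ (by norm_num)
  have h42 : (42025 : ℕ) ^ m = 205 ^ m * 205 ^ m := by rw [← mul_pow]; norm_num
  have htl := T_lt m t ht
  have htl' := T_lt m t' ht'
  rw [h42] at htl htl'
  have hdpos : 0 < 2 * (α * γ) := by positivity
  have hs1 : (s + 1) * (2 * (α * γ)) ≤ q := (Nat.le_div_iff_mul_le hdpos).1 hs
  have hs1' : (s' + 1) * (2 * (α * γ)) ≤ q := (Nat.le_div_iff_mul_le hdpos).1 hs'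
  have hS : 2 * (α * s) < q := by
    have h1 : 2 * (α * s) * 1 ≤ 2 * (α * s) * γ := Nat.mul_le_mul_left _ hγ
    have h2 : (s + 1) * (2 * (α * γ)) = 2 * (α * s) * γ + 2 * (α * γ) := by ring
    omega
  have hS' : 2 * (α * s') < q := by
    have h1 : 2 * (α * s') * 1 ≤ 2 * (α * s') * γ := Nat.mul_le_mul_left _ hγ
    have h2 : (s' + 1) * (2 * (α * γ)) = 2 * (α * s') * γ + 2 * (α * γ) := by ring
    omega
  generalize 205 ^ m = F at *
  -- pass to integers
  have hqZ : 4 * ((c : ℤ) * α * γ * |Δ|) * F ≤ q := by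
    have := hq
    zify at this
    exact this
  have hSZ : 2 * ((α : ℤ) * s) < q := by exact_mod_cast hS
  have hSZ' : 2 * ((α : ℤ) * s') < q := by exact_mod_cast hS'
  have hS0 : 0 ≤ (α : ℤ) * s := by positivity
  have hS0' : 0 ≤ (α : ℤ) * s' := by positivity
  have htZ : (t : ℤ) + 1 ≤ F * F := by exact_mod_cast htl
  have htZ' : (t' : ℤ) + 1 ≤ F * F := by exact_mod_cast htl'
  have ht0 : (0 : ℤ) ≤ t := by positivity
  have ht0' : (0 : ℤ) ≤ t' := by positivity
  have hcZ : (1 : ℤ) ≤ c := by exact_mod_cast hc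
  have hαZ : (1 : ℤ) ≤ α := by exact_mod_cast hα
  have hγZ : (1 : ℤ) ≤ γ := by exact_mod_cast hγ
  have hFZ : (1 : ℤ) ≤ F := by exact_mod_cast hF1
  have hΔ1 : 1 ≤ |Δ| := Int.one_le_abs hΔ
  push_cast at h
  -- `c α |Δ| F ≤ q / 4`
  have hb1 : 4 * ((c : ℤ) * |Δ| * (α * F)) ≤ q := by
    have h1 : (c : ℤ) * |Δ| * (α * F) * 1 ≤ (c : ℤ) * |Δ| * (α * F) * γ :=
      mul_le_mul_of_nonneg_left hγZ (by positivity)
    have h2 : 4 * ((c : ℤ) * α * γ * |Δ|) * F = 4 * ((c : ℤ) * |Δ| * (α * F) * γ) := by ring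
    linarith
  have hq0 : (0 : ℤ) < q := by
    have : 0 < (c : ℤ) * |Δ| * (α * F) := by positivity
    linarith
  have hΔq : |Δ| ≤ q := by
    have h1 : |Δ| * 1 ≤ |Δ| * ((c : ℤ) * (α * F)) :=
      mul_le_mul_of_nonneg_left (one_le_mul_of_one_le_of_one_le hcZ
        (one_le_mul_of_one_le_of_one_le hαZ hFZ)) (by positivity)
    have h2 : 4 * ((c : ℤ) * |Δ| * (α * F)) = 4 * (|Δ| * ((c : ℤ) * (α * F))) := by ring
    linarith
  -- the two shapes of the equation
  have hE : (α : ℤ) * s - α * s' + q * (c * γ * (α ^ 2 * (t - t'))) =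
      q * (c * γ * k ^ 2) + c * Δ * k := by linear_combination h
  have hcγ : (1 : ℤ) ≤ c * γ := one_le_mul_of_one_le_of_one_le hcZ hγZ
  -- bound on `k`
  have hk : |k| ≤ α * F := by
    by_contra hcon
    push Not at hcon
    have h1 : (α : ℤ) * F + 1 ≤ |k| := hcon
    have h2 : k ^ 2 = |k| ^ 2 := (sq_abs k).symm
    have hαF : (1 : ℤ) ≤ α * F := one_le_mul_of_one_le_of_one_le hαZ hFZ
    have h3 : (α : ℤ) ^ 2 * (F * F) + |k| ≤ k ^ 2 := by
      rw [h2]
      nlinarith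
    have h4 : -((q : ℤ) * (c * γ * |k|)) ≤ c * Δ * k := by
      have h5 : |c * Δ * k| ≤ (q : ℤ) * (c * γ * |k|) := by
        rw [abs_mul, abs_mul, abs_of_nonneg (by positivity : (0 : ℤ) ≤ c)]
        have h6 : (c : ℤ) * |k| * |Δ| ≤ c * |k| * q :=
          mul_le_mul_of_nonneg_left hΔq (by positivity)
        have h7 : (c : ℤ) * |k| * q * 1 ≤ c * |k| * q * γ :=
          mul_le_mul_of_nonneg_left hγZ (by positivity)
        have h8 : (c : ℤ) * |k| * q * γ = (q : ℤ) * (c * γ * |k|) := by ring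
        have h9 : (c : ℤ) * |Δ| * |k| = c * |k| * |Δ| := by ring
        linarith
      exact (abs_le.1 h5).1
    have h5 : (q : ℤ) * (c * γ * ((α : ℤ) ^ 2 * (F * F) + |k|)) ≤ q * (c * γ * k ^ 2) :=
      mul_le_mul_of_nonneg_left (mul_le_mul_of_nonneg_left h3 (by positivity)) hq0.le
    have h6 : (α : ℤ) ^ 2 * (t - t') ≤ α ^ 2 * (F * F - 1) :=
      mul_le_mul_of_nonneg_left (by linarith) (by positivity)
    have h7 : (q : ℤ) * (c * γ * (α ^ 2 * (t - t'))) ≤ q * (c * γ * (α ^ 2 * (F * F - 1))) :=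
      mul_le_mul_of_nonneg_left (mul_le_mul_of_nonneg_left h6 (by positivity)) hq0.le
    have h8 : (q : ℤ) * 1 ≤ q * (c * γ * α ^ 2) :=
      mul_le_mul_of_nonneg_left (one_le_mul_of_one_le_of_one_le hcγ (one_le_pow₀ hαZ)) hq0.le
    have h9 : (q : ℤ) * (c * γ * (α ^ 2 * (F * F - 1))) =
      q * (c * γ * (α ^ 2 * (F * F))) - q * (c * γ * α ^ 2) := by ring
    have h10 : (q : ℤ) * (c * γ * ((α : ℤ) ^ 2 * (F * F) + |k|)) =
      q * (c * γ * (α ^ 2 * (F * F))) + q * (c * γ * |k|) := by ring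
    linarith
  -- the lower part vanishes modulo `q`
  have hlow : 4 * |(c : ℤ) * Δ * k| ≤ q := by
    rw [abs_mul, abs_mul, abs_of_nonneg (by positivity : (0 : ℤ) ≤ c)]
    have h1 : (c : ℤ) * |Δ| * |k| ≤ c * |Δ| * (α * F) :=
      mul_le_mul_of_nonneg_left hk (by positivity)
    linarith
  have hlow2 := abs_le.1 (le_refl |(c : ℤ) * Δ * k|)
  have hz : (c : ℤ) * γ * (k ^ 2 - α ^ 2 * (t - t')) = 0 := by
    have h1 : (q : ℤ) * ((c : ℤ) * γ * (k ^ 2 - α ^ 2 * (t - t'))) =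
      α * s - α * s' - c * Δ * k := by linear_combination -hE
    have h2 : (q : ℤ) * ((c : ℤ) * γ * (k ^ 2 - α ^ 2 * (t - t'))) < q * 1 := by
      rw [h1]; linarith [hlow2.1]
    have h3 : (q : ℤ) * (-1) < (q : ℤ) * ((c : ℤ) * γ * (k ^ 2 - α ^ 2 * (t - t'))) := by
      rw [h1]; linarith [hlow2.2]
    have h4 := lt_of_mul_lt_mul_left h2 hq0.le
    have h5 := lt_of_mul_lt_mul_left h3 hq0.le
    omega
  have hz2 : k ^ 2 = (α : ℤ) ^ 2 * (t - t') := by
    have h1 : (c : ℤ) * γ ≠ 0 := by positivity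
    have := (mul_eq_zero.1 hz).resolve_left h1
    linarith
  have hdvd : (α : ℤ) ∣ k := (Int.pow_dvd_pow_iff two_ne_zero).1 (Dvd.intro _ hz2.symm)
  obtain ⟨j, rfl⟩ := hdvd
  have hj : (t : ℤ) - t' = j ^ 2 := by
    have h1 : (α : ℤ) ^ 2 ≠ 0 := by positivity
    apply mul_left_cancel₀ h1
    rw [← hz2]; ring
  have hj2 : t = t' + j.natAbs ^ 2 := by
    zify
    rw [sq_abs]
    linarith
  have := T_sdf m t ht t' ht' _ hj2
  rw [Int.natAbs_eq_zero.1 this, mul_zero]

lemma A_good {p a c α γ m : ℕ} {β δ : ℤ} (hp : p.Prime) (hc : 1 ≤ c) (hα : 1 ≤ α) (hγ : 1 ≤ γ)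
    (hΔ : (α : ℤ) * δ - β * γ ≠ 0) (hpc : ¬ (p : ℤ) ∣ c) (hpΔ : ¬ (p : ℤ) ∣ α * δ - β * γ)
    (hq : 4 * (c * α * γ * ((α : ℤ) * δ - β * γ).natAbs) * 205 ^ m ≤ p ^ a) :
    ∀ x ∈ A (p ^ a) m (c * α * γ) (2 * (α * γ)), ∀ y ∈ A (p ^ a) m (c * α * γ) (2 * (α * γ)),
    ∀ n : ℤ, (c : ℤ) * (α * n + β) * (γ * n + δ) ≠ 0 →
      (x : ℤ) - y ≠ c * (α * n + β) * (γ * n + δ) := by
  intro x hx y hy n hn h
  obtain ⟨s, t, hs, ht, rfl⟩ := mem_A.1 hx
  obtain ⟨s', t', hs', ht', rfl⟩ := mem_A.1 hy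
  set q := p ^ a with hqdef
  have hq0 : (q : ℤ) ≠ 0 := by
    have : 0 < q := by rw [hqdef]; exact pow_pos hp.pos a
    positivity
  have hpZ : Prime (p : ℤ) := Nat.prime_iff_prime_int.1 hp
  set u : ℤ := α * n + β with hu
  set v : ℤ := γ * n + δ with hv
  set Δ : ℤ := α * δ - β * γ with hΔd
  have huv : (α : ℤ) * v = γ * u + Δ := by rw [hu, hv, hΔd]; ring
  have hX : (q : ℤ) * ((s + q * ((c * α * γ : ℕ) * t)) - (s' + q * ((c * α * γ : ℕ) * t'))) =
      c * u * v := by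
    rw [← h]; push_cast; ring
  have hcopc : IsCoprime (q : ℤ) (c : ℤ) := by
    rw [hqdef]; push_cast
    exact ((Prime.coprime_iff_not_dvd hpZ).2 hpc).pow_left
  have hd : (q : ℤ) ∣ u * v := by
    have h1 : (q : ℤ) ∣ c * (u * v) := by
      rw [← mul_assoc, ← hX]; exact Dvd.intro _ rfl
    exact hcopc.dvd_of_dvd_mul_left h1
  by_cases hpu : (p : ℤ) ∣ u
  · have hpv : ¬ (p : ℤ) ∣ v := by
      intro hc2
      apply hpΔ
      have : Δ = α * v - γ * u := by linarith
      rw [this]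
      exact dvd_sub (Dvd.dvd.mul_left hc2 _) (Dvd.dvd.mul_left hpu _)
    have hcop : IsCoprime (q : ℤ) v := by
      rw [hqdef]; push_cast
      exact ((Prime.coprime_iff_not_dvd hpZ).2 hpv).pow_left
    obtain ⟨k, hk⟩ := hcop.dvd_of_dvd_mul_right hd
    have hk0 : k = 0 := by
      apply core (c := c) (α := α) (γ := γ) (q := q) (m := m) hc hα hγ hΔ hq hs hs' ht ht'
      apply mul_left_cancel₀ hq0
      have h2 : (q : ℤ) * (α * ((s + q * ((c * α * γ : ℕ) * t)) -
          (s' + q * ((c * α * γ : ℕ) * t')))) = α * (c * u * v) := by rw [← hX]; ring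
      rw [h2]
      have h3 : (α : ℤ) * (c * u * v) = c * u * (α * v) := by ring
      rw [h3, huv, hk]; ring
    apply hn
    rw [hk, hk0]; ring
  · have hcop : IsCoprime (q : ℤ) u := by
      rw [hqdef]; push_cast
      exact ((Prime.coprime_iff_not_dvd hpZ).2 hpu).pow_left
    obtain ⟨k, hk⟩ := hcop.dvd_of_dvd_mul_left hd
    have hlam : c * α * γ = c * γ * α := by ring
    have hd2 : 2 * (α * γ) = 2 * (γ * α) := by ring
    have hk0 : k = 0 := by
      rw [hd2] at hs hs'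
      apply core (c := c) (α := γ) (γ := α) (q := q) (m := m) (Δ := -Δ) hc hγ hα
        (neg_ne_zero.2 hΔ) (by rw [Int.natAbs_neg, ← hlam]; exact hq) hs hs' ht ht'
      rw [← hlam]
      apply mul_left_cancel₀ hq0
      have h2 : (q : ℤ) * (γ * ((s + q * ((c * α * γ : ℕ) * t)) -
          (s' + q * ((c * α * γ : ℕ) * t')))) = γ * (c * u * v) := by rw [← hX]; ring
      rw [h2]
      have h3 : (γ : ℤ) * (c * u * v) = c * v * (γ * u) := by ring
      have h4 : (γ : ℤ) * u = α * v - Δ := by linarith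
      rw [h3, h4, hk]; ring
    apply hn
    rw [hk, hk0]; ring

/-- A quadratic `h(x) = c (α x + β) (γ x + δ)` with positive leading coefficient and two distinct
rational roots satisfies `r_h(N) ≥ K N^g` with `g = log 504300 / log 205^4 = 0.6167…`. -/
theorem prod_form (c α γ : ℕ) (β δ : ℤ) (hc : 1 ≤ c) (hα : 1 ≤ α) (hγ : 1 ≤ γ)
    (hΔ : (α : ℤ) * δ ≠ β * γ) : ∃ K : ℝ, 0 < K ∧ ∀ N : ℕ, 1 ≤ N →
    ∃ A : Finset ℕ, A ⊆ Finset.Icc 1 N ∧
      K * (N : ℝ) ^ (Real.log 504300 / Real.log 1766100625) ≤ A.card ∧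
      ∀ x ∈ A, ∀ y ∈ A, ∀ n : ℤ, (c : ℤ) * (α * n + β) * (γ * n + δ) ≠ 0 →
        (x : ℤ) - y ≠ c * (α * n + β) * (γ * n + δ) := by
  have hΔ0 : (α : ℤ) * δ - β * γ ≠ 0 := sub_ne_zero.2 hΔ
  set D : ℕ := ((α : ℤ) * δ - β * γ).natAbs with hD0
  have hD1 : 1 ≤ D := Nat.one_le_iff_ne_zero.2 (Int.natAbs_ne_zero.2 hΔ0)
  obtain ⟨p, hpb, hp⟩ := Nat.exists_infinite_primes (c + D + 1)
  have hpc : ¬ (p : ℤ) ∣ c := fun h => by
    have := Nat.le_of_dvd (by omega) (Int.natCast_dvd_natCast.1 h)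
    omega
  have hpD : ¬ (p : ℤ) ∣ (α : ℤ) * δ - β * γ := fun h => by
    have := Nat.le_of_dvd (by omega) (Int.natCast_dvd.1 h)
    omega
  set l := c * α * γ with hl
  have hl1 : 1 ≤ l := by
    have : 0 < c * α * γ := by positivity
    omega
  set W := 4 * (l * D) with hW
  have hW1 : 1 ≤ W := by
    have : 0 < 4 * (l * D) := by positivity
    omega
  set C : ℕ := (p * W) ^ 2 * l with hC
  have hp2 := hp.two_le
  have hC1 : 1 ≤ C := by
    have : 0 < (p * W) ^ 2 * l := by positivity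
    omega
  set g : ℝ := Real.log 504300 / Real.log 1766100625 with hg
  have hl625 : 0 < Real.log 1766100625 := Real.log_pos (by norm_num)
  have hg0 : 0 ≤ g := div_nonneg (Real.log_nonneg (by norm_num)) hl625.le
  have h625 : (1766100625 : ℝ) ^ g = 504300 := by
    rw [hg, Real.rpow_def_of_pos (by norm_num), mul_div_cancel₀ _ hl625.ne',
      Real.exp_log (by norm_num)]
  have hCR : (0 : ℝ) < C := by exact_mod_cast hC1
  refine ⟨((1766100625 * (C : ℝ)) ^ g)⁻¹, by positivity, ?_⟩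
  intro N hN
  have hD : 0 < (1766100625 * (C : ℝ)) ^ g := by positivity
  by_cases hNC : N < C
  · refine ⟨{1}, by simpa using hN, ?_, ?_⟩
    · rw [inv_mul_le_iff₀ hD, card_singleton]
      have : (N : ℝ) ^ g ≤ (1766100625 * (C : ℝ)) ^ g := by
        apply Real.rpow_le_rpow (by positivity) _ hg0
        have : (N : ℝ) ≤ C := by exact_mod_cast hNC.le
        linarith
      simpa using this
    · intro x hx y hy n hn h
      rw [mem_singleton] at hx hy
      subst hx hy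
      apply hn
      rw [← h]; simp
  · push Not at hNC
    set m := Nat.log 1766100625 (N / C) with hm
    have hNC0 : N / C ≠ 0 := by
      have := (Nat.one_le_div_iff (by omega)).2 hNC
      omega
    have h1 : 1766100625 ^ m ≤ N / C := Nat.pow_log_le_self 1766100625 hNC0
    have h2 : N / C < 1766100625 ^ (m + 1) := Nat.lt_pow_succ_log_self (by norm_num) _
    have h3 : N < 1766100625 ^ (m + 1) * C := (Nat.div_lt_iff_lt_mul (by omega)).1 h2
    have h4 : 1766100625 ^ m * C ≤ N := (Nat.le_div_iff_mul_le (by omega)).1 h1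
    -- the modulus
    set Q := W * 205 ^ m with hQ
    have hF1 : 1 ≤ 205 ^ m := Nat.one_le_pow _ _ (by norm_num)
    have hQ1 : 1 ≤ Q := Nat.mul_pos hW1 hF1
    set a := Nat.log p Q + 1 with ha
    have hqa : Q ≤ p ^ a := (Nat.lt_pow_succ_log_self hp.one_lt Q).le
    have hqb : p ^ a ≤ p * Q := by
      rw [ha, pow_succ, mul_comm]
      exact Nat.mul_le_mul_left _ (Nat.pow_log_le_self p (by omega))
    have h25 : (42025 : ℕ) ^ m = 205 ^ m * 205 ^ m := by rw [← mul_pow]; norm_num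
    have h625' : (1766100625 : ℕ) ^ m = (205 ^ m * 205 ^ m) * (205 ^ m * 205 ^ m) := by
      rw [← mul_pow, ← mul_pow]; norm_num
    have hsize : p ^ a * p ^ a * (l * 42025 ^ m) ≤ N := by
      have h5 : p ^ a * p ^ a ≤ (p * Q) * (p * Q) := Nat.mul_le_mul hqb hqb
      have h9 : p ^ a * p ^ a * (l * 42025 ^ m) ≤ (p * Q) * (p * Q) * (l * 42025 ^ m) :=
        Nat.mul_le_mul_right _ h5
      have h10 : (p * Q) * (p * Q) * (l * 42025 ^ m) = 1766100625 ^ m * C := by
        rw [h25, h625', hC, hQ]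
        ring
      omega
    refine ⟨A (p ^ a) m l (2 * (α * γ)), ?_, ?_, ?_⟩
    · intro x hx
      obtain ⟨h5, h6⟩ := A_le hl1 x hx
      exact mem_Icc.2 ⟨h5, h6.trans hsize⟩
    · rw [inv_mul_le_iff₀ hD, A_card hl1]
      have h5 : (N : ℝ) ^ g ≤ (1766100625 * (C : ℝ)) ^ g * 504300 ^ m := by
        have h6 : (N : ℝ) ≤ (1766100625 * (C : ℝ)) * 1766100625 ^ m := by
          have : (N : ℝ) ≤ 1766100625 ^ (m + 1) * C := by exact_mod_cast h3.le
          rw [pow_succ] at this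
          linarith
        refine (Real.rpow_le_rpow (by positivity) h6 hg0).trans (le_of_eq ?_)
        rw [Real.mul_rpow (by positivity) (by positivity), ← Real.rpow_natCast (1766100625 : ℝ) m,
          ← Real.rpow_mul (by norm_num), mul_comm (m : ℝ) g, Real.rpow_mul (by norm_num), h625,
          Real.rpow_natCast]
      refine h5.trans (mul_le_mul_of_nonneg_left ?_ hD.le)
      have h7 : 205 ^ m ≤ p ^ a / (2 * (α * γ)) := by
        rw [Nat.le_div_iff_mul_le (by positivity)]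
        refine le_trans ?_ hqa
        have h8 : 2 * (α * γ) ≤ W := by
          have h9 : α * γ * 1 ≤ α * γ * (c * D) := Nat.mul_le_mul_left _ (Nat.mul_pos hc hD1)
          have h10 : W = 4 * (α * γ * (c * D)) := by rw [hW, hl]; ring
          omega
        rw [hQ, mul_comm]
        exact Nat.mul_le_mul_right _ h8
      have h8 : 504300 ^ m ≤ p ^ a / (2 * (α * γ)) * 2460 ^ m := by
        have : (504300 : ℕ) ^ m = 205 ^ m * 2460 ^ m := by rw [← mul_pow]; norm_num
        rw [this]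
        exact Nat.mul_le_mul_right _ h7
      exact_mod_cast h8
    · exact A_good hp hc hα hγ hΔ0 hpc hpD hqa

/-- an integer that is a square modulo every positive integer is a square -/
lemma disc_sq {D : ℤ} (h : ∀ q : ℕ, 1 ≤ q → ∃ z : ℤ, (q : ℤ) ∣ z ^ 2 - D) : ∃ e : ℤ, D = e ^ 2 := by
  by_cases hD : D = 0
  · exact ⟨0, by rw [hD]; norm_num⟩
  have hq : 1 ≤ 4 * D.natAbs ^ 2 := by
    have : 0 < D.natAbs := Int.natAbs_pos.2 hD
    have : 0 < 4 * D.natAbs ^ 2 := by positivity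
    omega
  obtain ⟨z, j, hj⟩ := h (4 * D.natAbs ^ 2) hq
  have hq2 : ((4 * D.natAbs ^ 2 : ℕ) : ℤ) = 4 * D ^ 2 := by
    push_cast
    rw [sq_abs]
  rw [hq2] at hj
  have heq : D * (1 + 4 * (D * j)) = z ^ 2 := by linear_combination -hj
  have hcop : IsCoprime D (1 + 4 * (D * j)) := ⟨-(4 * j), 1, by ring⟩
  obtain ⟨e, he | he⟩ := Int.sq_of_gcd_eq_one (Int.isCoprime_iff_gcd_eq_one.1 hcop) heq
  · exact ⟨e, he⟩
  · exfalso
    obtain ⟨f, hf | hf⟩ := Int.sq_of_gcd_eq_one (Int.isCoprime_iff_gcd_eq_one.1 hcop.symm)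
      (by rw [mul_comm]; exact heq)
    · rw [hf, he] at heq
      have h1 : z ^ 2 + (e * f) ^ 2 = 0 := by linear_combination -heq
      have h2 : (e * f) ^ 2 = 0 := by
        have := sq_nonneg z
        have := sq_nonneg (e * f)
        linarith
      have h3 : e * f = 0 := pow_eq_zero_iff (two_ne_zero) |>.1 h2
      rcases mul_eq_zero.1 h3 with h4 | h4
      · apply hD
        rw [he, h4]; norm_num
      · rw [h4] at hf
        generalize D * j = X at hf
        omega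
    · obtain ⟨k, hk | hk⟩ := Int.even_or_odd' f
      · rw [hk] at hf
        have : 1 + 4 * (D * j) = -(4 * k ^ 2) := by rw [hf]; ring
        generalize D * j = X at this
        generalize k ^ 2 = Y at this
        omega
      · rw [hk] at hf
        have : 1 + 4 * (D * j) = -(4 * (k ^ 2 + k) + 1) := by rw [hf]; ring
        generalize D * j = X at this
        generalize k ^ 2 + k = Y at this
        omega

/-- square differences: the easy case of a double root -/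
lemma square_form : ∃ K : ℝ, 0 < K ∧ ∀ N : ℕ, 1 ≤ N →
    ∃ A : Finset ℕ, A ⊆ Finset.Icc 1 N ∧
      K * (N : ℝ) ^ (Real.log 504300 / Real.log 1766100625) ≤ A.card ∧
      ∀ x ∈ A, ∀ y ∈ A, ∀ u : ℤ, u ^ 2 ≠ 0 → (x : ℤ) - y ≠ u ^ 2 := by
  set g : ℝ := Real.log 504300 / Real.log 1766100625 with hg
  have hl625 : 0 < Real.log 1766100625 := Real.log_pos (by norm_num)
  have hg0 : 0 ≤ g := div_nonneg (Real.log_nonneg (by norm_num)) hl625.le
  have h625 : (1766100625 : ℝ) ^ g = 504300 := by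
    rw [hg, Real.rpow_def_of_pos (by norm_num), mul_div_cancel₀ _ hl625.ne',
      Real.exp_log (by norm_num)]
  refine ⟨(504300 : ℝ)⁻¹, by positivity, ?_⟩
  intro N hN
  set m := Nat.log 1766100625 N with hm
  have h1 : 1766100625 ^ m ≤ N := Nat.pow_log_le_self 1766100625 (by omega)
  have h2 : N < 1766100625 ^ (m + 1) := Nat.lt_pow_succ_log_self (by norm_num) _
  have h3 : (42025 : ℕ) ^ (2 * m) = 1766100625 ^ m := by rw [pow_mul]; norm_num
  refine ⟨(T (2 * m)).image (fun t => t + 1), ?_, ?_, ?_⟩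
  · intro x hx
    obtain ⟨t, ht, rfl⟩ := mem_image.1 hx
    have := T_lt (2 * m) t ht
    rw [h3] at this
    exact mem_Icc.2 ⟨by omega, by omega⟩
  · rw [inv_mul_le_iff₀ (by norm_num), card_image_of_injective _ (fun a b h => by simpa using h),
      T_card]
    have h4 : (N : ℝ) ^ g ≤ 504300 ^ (m + 1) := by
      have h6 : (N : ℝ) ≤ 1766100625 ^ (m + 1) := by exact_mod_cast h2.le
      refine (Real.rpow_le_rpow (by positivity) h6 hg0).trans (le_of_eq ?_)
      rw [← Real.rpow_natCast (1766100625 : ℝ) (m + 1), ← Real.rpow_mul (by norm_num),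
        mul_comm _ g, Real.rpow_mul (by norm_num), h625, Real.rpow_natCast]
    refine h4.trans ?_
    have h5 : (504300 : ℕ) ^ m ≤ 2460 ^ (2 * m) := by
      rw [pow_mul]
      exact Nat.pow_le_pow_left (by norm_num) m
    have h6 : (504300 : ℝ) ^ m ≤ ((2460 ^ (2 * m) : ℕ) : ℝ) := by exact_mod_cast h5
    rw [pow_succ, mul_comm]
    exact mul_le_mul_of_nonneg_left h6 (by norm_num)
  · intro x hx y hy u hu h
    obtain ⟨t, ht, rfl⟩ := mem_image.1 hx
    obtain ⟨t', ht', rfl⟩ := mem_image.1 hy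
    have hj2 : t = t' + u.natAbs ^ 2 := by
      zify
      rw [sq_abs]
      push_cast at h
      linarith
    have := T_sdf _ t ht t' ht' _ hj2
    apply hu
    rw [Int.natAbs_eq_zero.1 this]
    norm_num

/-- passing from the multiples `M v` of the forbidden differences to `v` -/
lemma descale {S : ℤ → Prop} {g : ℝ} (M : ℕ) (hM : 2 ≤ M)
    (H : ∃ K : ℝ, 0 < K ∧ ∀ N : ℕ, 1 ≤ N → ∃ A : Finset ℕ, A ⊆ Finset.Icc 1 N ∧
      K * (N : ℝ) ^ g ≤ A.card ∧ ∀ x ∈ A, ∀ y ∈ A, ∀ v : ℤ, S v → (x : ℤ) - y ≠ M * v) :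
    ∃ K : ℝ, 0 < K ∧ ∀ N : ℕ, 1 ≤ N → ∃ A : Finset ℕ, A ⊆ Finset.Icc 1 N ∧
      K * (N : ℝ) ^ g ≤ A.card ∧ ∀ x ∈ A, ∀ y ∈ A, ∀ v : ℤ, S v → (x : ℤ) - y ≠ v := by
  obtain ⟨K, hK, H⟩ := H
  have hMR : (0 : ℝ) < M := by
    have : 0 < M := by omega
    exact_mod_cast this
  refine ⟨K / M, by positivity, ?_⟩
  intro N hN
  obtain ⟨A, hA, hcard, hgood⟩ := H N hN
  obtain ⟨r, hr, hrc⟩ := Finset.exists_le_card_fiber_of_nsmul_le_card_of_maps_to
    (s := A) (t := range M) (f := fun x => x % M) (b := (A.card : ℝ) / M)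
    (fun x _ => mem_range.2 (Nat.mod_lt _ (by omega))) ⟨0, mem_range.2 (by omega)⟩
    (by rw [card_range, nsmul_eq_mul, mul_div_cancel₀ _ hMR.ne'])
  refine ⟨(A.filter fun x => x % M = r).image (fun x => x / M + 1), ?_, ?_, ?_⟩
  · intro x hx
    obtain ⟨y, hy, rfl⟩ := mem_image.1 hx
    have h1 := mem_Icc.1 (hA (mem_filter.1 hy).1)
    have h2 : y / M < y := Nat.div_lt_self (by omega) (by omega)
    exact mem_Icc.2 ⟨Nat.le_add_left 1 _, (Nat.succ_le_of_lt h2).trans h1.2⟩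
  · rw [card_image_of_injOn]
    · refine le_trans ?_ hrc
      rw [div_mul_eq_mul_div]
      exact div_le_div_of_nonneg_right hcard hMR.le
    · intro x hx y hy h
      have h1 := (mem_filter.1 (mem_coe.1 hx)).2
      have h2 := (mem_filter.1 (mem_coe.1 hy)).2
      have h3 : x / M = y / M := by simpa using h
      rw [← Nat.div_add_mod x M, ← Nat.div_add_mod y M, h1, h2, h3]
  · intro x hx y hy v hv h
    obtain ⟨x', hx', rfl⟩ := mem_image.1 hx
    obtain ⟨y', hy', rfl⟩ := mem_image.1 hy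
    have h1 := (mem_filter.1 hx').2
    have h2 := (mem_filter.1 hy').2
    apply hgood x' (mem_filter.1 hx').1 y' (mem_filter.1 hy').1 v hv
    have h3 : (x' : ℤ) = M * (x' / M : ℕ) + r := by
      have := Nat.div_add_mod x' M
      rw [h1] at this
      exact_mod_cast this.symm
    have h4 : (y' : ℤ) = M * (y' / M : ℕ) + r := by
      have := Nat.div_add_mod y' M
      rw [h2] at this
      exact_mod_cast this.symm
    generalize x' / M = X at h3 h
    generalize y' / M = Y at h4 h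
    rw [← h, h3, h4]
    push_cast
    ring

/-- Every intersective quadratic `h ∈ ℤ[x]` with positive leading coefficient satisfies
`r_h(N) ≥ K N^g` with `g = log 504300 / log 205^4 = 0.6167…`. -/
theorem result (h : Polynomial ℤ) (hdeg : h.natDegree = 2) (hlead : 0 < h.leadingCoeff)
    (hint : ∀ q : ℕ, 1 ≤ q → ∃ t : ℤ, (q : ℤ) ∣ h.eval t) :
    ∃ K : ℝ, 0 < K ∧ ∀ N : ℕ, 1 ≤ N → ∃ A : Finset ℕ, A ⊆ Finset.Icc 1 N ∧
      K * (N : ℝ) ^ (Real.log 504300 / Real.log 1766100625) ≤ A.card ∧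
      ∀ x ∈ A, ∀ y ∈ A, ∀ n : ℤ, h.eval n ≠ 0 → (x : ℤ) - y ≠ h.eval n := by
  have hev : ∀ t : ℤ, h.eval t = h.coeff 2 * t ^ 2 + h.coeff 1 * t + h.coeff 0 := by
    intro t
    rw [Polynomial.eval_eq_sum_range, hdeg]
    simp only [Finset.sum_range_succ, Finset.sum_range_zero]
    ring
  have ha : 0 < h.coeff 2 := by
    rw [Polynomial.leadingCoeff, hdeg] at hlead
    exact hlead
  generalize h.coeff 2 = a at hev ha
  generalize h.coeff 1 = b at hev
  generalize h.coeff 0 = c0 at hev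
  have h4a : ∀ t : ℤ, 4 * a * h.eval t = (2 * a * t + b) ^ 2 - (b ^ 2 - 4 * a * c0) := by
    intro t; rw [hev]; ring
  obtain ⟨e, he⟩ := disc_sq (D := b ^ 2 - 4 * a * c0) (fun q hq => by
    obtain ⟨t, ht⟩ := hint q hq
    exact ⟨2 * a * t + b, by rw [← h4a]; exact Dvd.dvd.mul_left ht _⟩)
  rw [he] at h4a
  obtain ⟨k, rfl⟩ : ∃ k : ℕ, a = k := ⟨a.toNat, (Int.toNat_of_nonneg ha.le).symm⟩
  have hk : 1 ≤ k := by
    have : 0 < k := by exact_mod_cast ha
    omega
  have hmain : ∃ K : ℝ, 0 < K ∧ ∀ N : ℕ, 1 ≤ N → ∃ A : Finset ℕ, A ⊆ Finset.Icc 1 N ∧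
      K * (N : ℝ) ^ (Real.log 504300 / Real.log 1766100625) ≤ A.card ∧
      ∀ x ∈ A, ∀ y ∈ A, ∀ v : ℤ, (v ≠ 0 ∧ ∃ n : ℤ, h.eval n = v) →
        (x : ℤ) - y ≠ (4 * k : ℕ) * v := by
    by_cases he0 : e = 0
    · obtain ⟨K, hK, H⟩ := square_form
      refine ⟨K, hK, fun N hN => ?_⟩
      obtain ⟨A, h1, h2, h3⟩ := H N hN
      refine ⟨A, h1, h2, ?_⟩
      rintro x hx y hy v ⟨hv, n, rfl⟩
      have h5 : ((4 * k : ℕ) : ℤ) * h.eval n = (2 * k * n + b) ^ 2 := by
        push_cast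
        rw [h4a, he0]; ring
      rw [h5]
      apply h3 x hx y hy
      rw [← h5]
      apply mul_ne_zero _ hv
      have : 0 < 4 * k := by omega
      exact_mod_cast this.ne'
    · obtain ⟨K, hK, H⟩ := prod_form 1 (2 * k) (2 * k) (b - e) (b + e) le_rfl (by omega) (by omega)
        (by
          intro hcon
          push_cast at hcon
          have h6 : (4 : ℤ) * k * e = 0 := by linear_combination hcon
          have h7 : (4 : ℤ) * k ≠ 0 := by
            have : 0 < 4 * k := by omega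
            exact_mod_cast this.ne'
          exact he0 ((mul_eq_zero.1 h6).resolve_left h7))
      refine ⟨K, hK, fun N hN => ?_⟩
      obtain ⟨A, h1, h2, h3⟩ := H N hN
      refine ⟨A, h1, h2, ?_⟩
      rintro x hx y hy v ⟨hv, n, rfl⟩
      have h5 : ((4 * k : ℕ) : ℤ) * h.eval n =
          ((1 : ℕ) : ℤ) * ((2 * k : ℕ) * n + (b - e)) * ((2 * k : ℕ) * n + (b + e)) := by
        push_cast
        rw [h4a]; ring
      rw [h5]
      apply h3 x hx y hy
      rw [← h5]
      apply mul_ne_zero _ hv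
      have : 0 < 4 * k := by omega
      exact_mod_cast this.ne'
  obtain ⟨K, hK, H⟩ := descale (4 * k) (by omega) hmain
  refine ⟨K, hK, fun N hN => ?_⟩
  obtain ⟨A, h1, h2, h3⟩ := H N hN
  exact ⟨A, h1, h2, fun x hx y hy n hn => h3 x hx y hy _ ⟨hn, n, rfl⟩⟩

end Vale.Agent.Results.P042.QuadraticLower
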